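import Vale.Agent.P284.MathlibUsed

/-!
Conradian orders and homomorphisms to the integers, for amenable groups.
-/

namespace Vale.Agent.P284.WM

open Set Topology Function

universe u

set_option linter.unusedSectionVars false

variable {G : Type u} [Group G]

/-- A finitely additive probability on all subsets. -/
structure FA (m : Set G → ℝ) : Prop where
  nonneg : ∀ A, 0 ≤ m A
  univ : m univ = 1
  add : ∀ A B, Disjoint A B → m (A ∪ B) = m A + m B

section avg

variable {m : Set G → ℝ}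

/-- The average of an integer valued function. -/
noncomputable def avg (m : Set G → ℝ) (u : G → ℤ) : ℝ := ∑ᶠ j : ℤ, (j : ℝ) * m {x | u x = j}

theorem FA.empty (hm : FA m) : m ∅ = 0 := by
  have := hm.add ∅ ∅ (by simp)
  simp at this
  exact this

theorem FA.sum {κ : Type*} (hm : FA m) (w : G → κ) (t : Finset κ) :
    m {x | w x ∈ t} = ∑ k ∈ t, m {x | w x = k} := by
  classical
  induction t using Finset.induction_on with
  | empty => simpa using hm.empty
  | insert a t ha ih =>
    rw [Finset.sum_insert ha, ← ih, ← hm.add]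
    · congr 1
      ext x
      simp
    · rw [Set.disjoint_left]
      intro x hx hx'
      rw [mem_ofPred_eq] at hx hx'
      exact ha (hx ▸ hx')

theorem FA.avg_eq {κ : Type*} (hm : FA m) {t : Finset κ} {w : G → κ} (hw : ∀ x, w x ∈ t)
    (r : κ → ℤ) {u : G → ℤ} (hu : ∀ x, u x = r (w x)) :
    avg m u = ∑ k ∈ t, (r k : ℝ) * m {x | w x = k} := by
  classical
  have h1 : ∀ j : ℤ, m {x | u x = j} = ∑ k ∈ t with r k = j, m {x | w x = k} := by
    intro j
    rw [← hm.sum w]
    congr 1
    ext x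
    simp [hu, hw]
  unfold avg
  rw [finsum_eq_sum_of_support_subset (s := t.image r)]
  · rw [← Finset.sum_fiberwise_of_maps_to (s := t) (t := t.image r) (g := r)
      (fun k hk => Finset.mem_image_of_mem r hk)]
    refine Finset.sum_congr rfl fun j _ => ?_
    rw [h1, Finset.mul_sum]
    refine Finset.sum_congr rfl fun k hk => ?_
    rw [(Finset.mem_filter.1 hk).2]
  · intro j hj
    rw [Function.mem_support, h1] at hj
    by_contra hcon
    apply hj
    rw [Finset.sum_eq_zero, mul_zero]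
    intro k hk
    exfalso
    obtain ⟨hk1, hk2⟩ := Finset.mem_filter.1 hk
    exact hcon (by rw [← hk2]; exact Finset.mem_coe.2 (Finset.mem_image_of_mem r hk1))

theorem FA.avg_add (hm : FA m) {u v : G → ℤ} {D : ℤ} (hu : ∀ x, |u x| ≤ D) (hv : ∀ x, |v x| ≤ D) :
    avg m (fun x => u x + v x) = avg m u + avg m v := by
  have hw : ∀ x, (u x, v x) ∈ Finset.Icc (-D) D ×ˢ Finset.Icc (-D) D := fun x => by
    rw [Finset.mem_product, Finset.mem_Icc, Finset.mem_Icc]
    exact ⟨abs_le.1 (hu x), abs_le.1 (hv x)⟩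
  rw [hm.avg_eq (w := fun x => (u x, v x)) hw (fun k => k.1 + k.2) (u := fun x => u x + v x)
    (fun _ => rfl), hm.avg_eq (w := fun x => (u x, v x)) hw (fun k => k.1) (u := u) (fun _ => rfl),
    hm.avg_eq (w := fun x => (u x, v x)) hw (fun k => k.2) (u := v) (fun _ => rfl),
    ← Finset.sum_add_distrib]
  refine Finset.sum_congr rfl fun k _ => ?_
  push_cast
  ring

theorem FA.one_le_avg (hm : FA m) {u : G → ℤ} {D : ℤ} (hu : ∀ x, u x ≤ D) (h1 : ∀ x, 1 ≤ u x) :
    1 ≤ avg m u := by
  have hw : ∀ x, u x ∈ Finset.Icc 1 D := fun x => Finset.mem_Icc.2 ⟨h1 x, hu x⟩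
  rw [hm.avg_eq (w := u) hw id (u := u) (fun _ => rfl)]
  have h2 : (1 : ℝ) = ∑ k ∈ Finset.Icc 1 D, m {x | u x = k} := by
    rw [← hm.sum u, ← hm.univ]
    congr 1
    ext x
    simp only [mem_univ, mem_ofPred_eq, hw]
  rw [h2]
  refine Finset.sum_le_sum fun k hk => ?_
  have h3 : (1 : ℝ) ≤ (k : ℝ) := by exact_mod_cast (Finset.mem_Icc.1 hk).1
  have h4 := hm.nonneg {x | u x = k}
  simp only [id_eq]
  nlinarith

theorem avg_shift (hr : ∀ (g : G) A, m {x | x * g ∈ A} = m A) (u : G → ℤ) (g : G) :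
    avg m (fun x => u (x * g)) = avg m u := by
  unfold avg
  refine finsum_congr fun j => ?_
  rw [← hr g {x | u x = j}]
  rfl

end avg

section order

variable [LinearOrder G] (hl : ∀ a b c : G, b < c → a * b < a * c)
include hl

theorem ml_lt {a b c : G} : a * b < a * c ↔ b < c := by
  refine ⟨fun h => ?_, hl a b c⟩
  have := hl a⁻¹ _ _ h
  simpa using this

theorem ml_le {a b c : G} : a * b ≤ a * c ↔ b ≤ c := by
  rw [← not_lt, ml_lt hl, not_lt]

theorem one_le_pw {a : G} (ha : 1 ≤ a) (n : ℕ) : 1 ≤ a ^ n := by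
  induction n with
  | zero => simp
  | succ n ih =>
    rw [pow_succ']
    calc 1 ≤ a := ha
      _ = a * 1 := (mul_one a).symm
      _ ≤ a * a ^ n := (ml_le hl).2 ih

theorem conrad1 (hr : ∀ a b : G, 1 < b → ∃ n : ℕ, 1 ≤ n ∧ 1 < (a ^ n)⁻¹ * b * a ^ n) {a b : G}
    (ha : 1 < a) (hb : 1 < b) : ∃ n : ℕ, a < b * a ^ n := by
  obtain ⟨n, hn, h⟩ := hr a b hb
  refine ⟨n, ?_⟩
  have h1 := hl (a ^ n) _ _ h
  rw [mul_one, mul_assoc, mul_inv_cancel_left] at h1
  refine lt_of_le_of_lt ?_ h1
  obtain ⟨k, rfl⟩ : ∃ k, n = k + 1 := ⟨n - 1, by omega⟩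
  rw [pow_succ']
  calc a = a * 1 := (mul_one a).symm
    _ ≤ a * a ^ k := (ml_le hl).2 (one_le_pw hl ha.le k)

theorem conrad2 (hr : ∀ a b : G, 1 < b → ∃ n : ℕ, 1 ≤ n ∧ 1 < (a ^ n)⁻¹ * b * a ^ n) {a b : G}
    (ha : 1 < a) (hb : 1 < b) : a < b * a ^ 2 := by
  by_contra hcon
  rw [not_lt] at hcon
  set c := b * a with hc
  have hc1 : 1 < c := by
    calc 1 < b := hb
      _ = b * 1 := (mul_one b).symm
      _ < b * a := hl _ _ _ ha
  have h1 : c * a ≤ a := by
    rw [hc, mul_assoc, ← pow_two]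
    exact hcon
  have h2 : ∀ n : ℕ, c ^ n * a ≤ a := by
    intro n
    induction n with
    | zero => simp
    | succ n ih =>
      calc c ^ (n + 1) * a = c ^ n * (c * a) := by rw [pow_succ, mul_assoc]
        _ ≤ c ^ n * a := (ml_le hl).2 h1
        _ ≤ a := ih
  obtain ⟨n, hn⟩ := conrad1 hl hr hc1 hb
  have h3 : b * c ^ n < c := by
    calc b * c ^ n = b * (c ^ n * 1) := by rw [mul_one]
      _ < b * (c ^ n * a) := hl _ _ _ (hl _ _ _ ha)
      _ ≤ b * a := (ml_le hl).2 (h2 n)
  exact lt_asymm hn h3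

theorem zpow_lt {z : G} (hz : 1 < z) {k l : ℤ} (h : k < l) : z ^ k < z ^ l := by
  obtain ⟨n, hn⟩ : ∃ n : ℕ, l = k + (n + 1) := ⟨(l - k - 1).toNat, by omega⟩
  rw [hn, zpow_add]
  calc z ^ k = z ^ k * 1 := (mul_one _).symm
    _ < z ^ k * z := hl _ _ _ hz
    _ = z ^ k * (z * 1) := by rw [mul_one]
    _ ≤ z ^ k * (z * z ^ n) := (ml_le hl).2 ((ml_le hl).2 (one_le_pw hl hz.le n))
    _ = z ^ k * z ^ ((n : ℤ) + 1) := by
      rw [← pow_succ', ← zpow_natCast]
      push_cast
      rfl

theorem zpow_le {z : G} (hz : 1 < z) {k l : ℤ} (h : k ≤ l) : z ^ k ≤ z ^ l := by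
  rcases h.lt_or_eq with h | h
  · exact (zpow_lt hl hz h).le
  · rw [h]

theorem lt_of_zpow {z : G} (hz : 1 < z) {k l : ℤ} (h : z ^ k < z ^ l) : k < l := by
  by_contra hcon
  exact absurd (zpow_le hl hz (not_lt.1 hcon)) (not_le.2 h)

section conradian

variable (hc : ∀ a b : G, 1 < a → 1 < b → a < b * a ^ 2)
include hc

theorem step_up {z : G} (hz : 1 < z) {g : G} {k : ℤ} (h : g ≤ z ^ k) : g * z < z ^ (k + 2) := by
  rcases h.lt_or_eq with h | h
  · have h1 : 1 < g⁻¹ * z ^ k := by
      have := hl g⁻¹ _ _ h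
      simpa using this
    have h2 := hc z _ hz h1
    have h3 := hl g _ _ h2
    rw [mul_assoc, mul_inv_cancel_left] at h3
    rw [zpow_add]
    exact_mod_cast h3
  · rw [h, ← zpow_add_one]
    exact zpow_lt hl hz (by omega)

theorem step_gen {z : G} (hz : 1 < z) {s : G} (hs : s ≤ z) (hs' : s⁻¹ ≤ z) (g : G) (k : ℤ) :
    (g ≤ z ^ k → g * s ≤ z ^ (k + 2)) ∧ (z ^ k ≤ g → z ^ (k - 2) ≤ g * s) := by
  refine ⟨fun h => ?_, fun h => ?_⟩
  · exact ((ml_le hl).2 hs).trans (step_up hl hc hz h).le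
  · by_contra hcon
    rw [not_le] at hcon
    have h1 := step_up hl hc hz hcon.le
    rw [sub_add_cancel] at h1
    have h2 : g ≤ g * s * z := by
      calc g = g * s * s⁻¹ := by group
        _ ≤ g * s * z := (ml_le hl).2 hs'
    exact absurd (h.trans (h2.trans h1.le)) (not_le.2 (lt_of_le_of_lt h2 h1) |> fun h3 => by
      intro _
      exact h3 (h.trans le_rfl))

theorem bounded_step {z : G} (hz : 1 < z) {S : Set G} (hS : Subgroup.closure S = ⊤)
    (hs : ∀ s ∈ S, s ≤ z) (hs' : ∀ s ∈ S, s⁻¹ ≤ z) (x : G) : ∃ D : ℕ, ∀ (g : G) (k : ℤ),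
      (g ≤ z ^ k → g * x ≤ z ^ (k + D)) ∧ (z ^ k ≤ g → z ^ (k - D) ≤ g * x) := by
  have hx : x ∈ Subgroup.closure S := by rw [hS]; trivial
  induction hx using Subgroup.closure_induction with
  | mem x hx => exact ⟨2, fun g k => step_gen hl hc hz (hs x hx) (hs' x hx) g k⟩
  | one => exact ⟨0, fun g k => by simp⟩
  | mul x y _ _ hx hy =>
    obtain ⟨D, hD⟩ := hx
    obtain ⟨E, hE⟩ := hy
    refine ⟨D + E, fun g k => ⟨fun h => ?_, fun h => ?_⟩⟩
    · have := (hE (g * x) (k + D)).1 ((hD g k).1 h)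
      rw [← mul_assoc]
      convert this using 2
      push_cast
      ring
    · have := (hE (g * x) (k - D)).2 ((hD g k).2 h)
      rw [← mul_assoc]
      convert this using 2
      push_cast
      ring
  | inv x _ hx =>
    obtain ⟨D, hD⟩ := hx
    refine ⟨D + 1, fun g k => ⟨fun h => ?_, fun h => ?_⟩⟩
    · by_contra hcon
      rw [not_le] at hcon
      have h1 := (hD (g * x⁻¹) _).2 hcon.le
      rw [inv_mul_cancel_right] at h1
      have h2 : z ^ k < z ^ (k + (D + 1 : ℕ) - D) := zpow_lt hl hz (by push_cast; omega)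
      exact absurd (h2.trans_le (h1.trans h)) (lt_irrefl _)
    · by_contra hcon
      rw [not_le] at hcon
      have h1 := (hD (g * x⁻¹) _).1 hcon.le
      rw [inv_mul_cancel_right] at h1
      have h2 : z ^ (k - (D + 1 : ℕ) + D) < z ^ k := zpow_lt hl hz (by push_cast; omega)
      exact absurd (h2.trans_le (h.trans h1)) (lt_irrefl _)

/-- A finitely generated amenable group with a Conradian order has a nonzero homomorphism to the
reals. -/
theorem exists_real_hom {m : Set G → ℝ} (hm : FA m) (hr : ∀ (g : G) A, m {x | x * g ∈ A} = m A)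
    [Group.FG G] [Nontrivial G] : ∃ f : G →* Multiplicative ℝ, ∃ z, f z ≠ 1 := by
  classical
  obtain ⟨S, hS⟩ := Group.fg_def.1 (inferInstance : Group.FG G)
  set T : Finset G := insert 1 (S ∪ S.image (·⁻¹)) with hT
  have hTne : T.Nonempty := ⟨1, Finset.mem_insert_self _ _⟩
  set z := T.max' hTne with hzdef
  have hle : ∀ t ∈ T, t ≤ z := fun t ht => Finset.le_max' T t ht
  have h1z : 1 ≤ z := hle 1 (Finset.mem_insert_self _ _)
  have hs : ∀ s ∈ (S : Set G), s ≤ z := fun s h => hle s (by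
    rw [hT]; simp only [Finset.mem_insert, Finset.mem_union]; exact Or.inr (Or.inl h))
  have hs' : ∀ s ∈ (S : Set G), s⁻¹ ≤ z := fun s h => hle _ (by
    rw [hT]; simp only [Finset.mem_insert, Finset.mem_union, Finset.mem_image]
    exact Or.inr (Or.inr ⟨s, h, rfl⟩))
  have hz : 1 < z := by
    rcases h1z.lt_or_eq with h | h
    · exact h
    · exfalso
      have h2 : ∀ s ∈ (S : Set G), s = 1 := by
        intro s h3
        refine le_antisymm (by rw [h]; exact hs s h3) ?_
        have h4 : s⁻¹ ≤ 1 := by rw [h]; exact hs' s h3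
        have h5 := (ml_le hl (a := s)).2 h4
        simpa using h5
      have h3 : Subgroup.closure (S : Set G) = ⊥ := by
        rw [Subgroup.closure_eq_bot_iff]
        intro s h4
        exact h2 s h4
      rw [hS] at h3
      obtain ⟨a, ha⟩ := exists_ne (1 : G)
      exact ha (Subgroup.mem_bot.1 (h3 ▸ Subgroup.mem_top a))
  have hbd := bounded_step hl hc hz hS hs hs'
  have hF : ∀ g : G, ∃ k : ℤ, z ^ k ≤ g ∧ g < z ^ (k + 1) := by
    intro g
    obtain ⟨D, hD⟩ := hbd g
    have h2 := (hD 1 0).1 (by simp)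
    have h3 := (hD 1 0).2 (by simp)
    rw [one_mul] at h2 h3
    obtain ⟨k, hk, hk2⟩ := Int.exists_greatest_of_bdd (P := fun k => z ^ k ≤ g)
      ⟨0 + D, fun k hk => by
        by_contra hcon
        rw [not_le] at hcon
        exact absurd ((zpow_lt hl hz hcon).trans_le (hk.trans h2)) (lt_irrefl _)⟩ ⟨_, h3⟩
    refine ⟨k, hk, ?_⟩
    by_contra hcon
    rw [not_lt] at hcon
    have := hk2 _ hcon
    omega
  choose F hF1 hF2 using hF
  have hle1 : ∀ {g h : G} {a b : ℤ}, z ^ a ≤ g → g ≤ h → h < z ^ b → a < b := fun h1 h2 h3 =>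
    lt_of_zpow hl hz (h1.trans_lt (h2.trans_lt h3))
  have hdiff : ∀ x : G, ∃ D : ℤ, ∀ g, |F (g * x) - F g| ≤ D := by
    intro x
    obtain ⟨D, hD⟩ := hbd x
    refine ⟨D + 1, fun g => abs_le.2 ⟨?_, ?_⟩⟩
    · have h2 := (hD g (F g)).2 (hF1 g)
      have h3 := hle1 h2 le_rfl (hF2 (g * x))
      omega
    · have h2 := (hD g (F g + 1)).1 (hF2 g).le
      have h3 : F (g * x) < F g + 1 + D + 1 :=
        hle1 (hF1 (g * x)) h2 (zpow_lt hl hz (by omega))
      omega
  choose D hD using hdiff
  refine ⟨⟨⟨fun x => Multiplicative.ofAdd (avg m fun g => F (g * x) - F g), ?_⟩, ?_⟩, z ^ 2, ?_⟩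
  · rw [← ofAdd_zero]
    congr 1
    have h2 : (fun g => F (g * 1) - F g) = fun _ : G => (0 : ℤ) := by
      funext g
      simp
    rw [h2]
    have := hm.avg_add (u := fun _ => 0) (v := fun _ => 0) (D := 0) (by simp) (by simp)
    simp only [add_zero] at this
    linarith
  · intro x y
    show Multiplicative.ofAdd _ = Multiplicative.ofAdd _ * Multiplicative.ofAdd _
    rw [← ofAdd_add]
    congr 1
    have h2 : (fun g => F (g * (x * y)) - F g) =
        fun g => (F (g * x) - F g) + (F (g * x * y) - F (g * x)) := by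
      funext g
      rw [mul_assoc]
      ring
    rw [h2, hm.avg_add (D := max (D x) (D y)) (fun g => (hD x g).trans (le_max_left _ _))
      (fun g => (hD y (g * x)).trans (le_max_right _ _))]
    congr 1
    exact avg_shift hr (fun g => F (g * y) - F g) x
  · intro h2
    have h3 : avg m (fun g => F (g * z ^ 2) - F g) = 0 := by
      exact Multiplicative.ofAdd.injective h2
    have h4 : 1 ≤ avg m (fun g => F (g * z ^ 2) - F g) := by
      refine hm.one_le_avg (D := D (z ^ 2)) (fun g => (le_abs_self _).trans (hD _ g)) (fun g => ?_)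
      have h5 : z < (z ^ (F g))⁻¹ * g * z ^ 2 := by
        have h6 : 1 ≤ (z ^ (F g))⁻¹ * g := by
          have := (ml_le hl (a := (z ^ (F g))⁻¹)).2 (hF1 g)
          simpa using this
        rcases h6.lt_or_eq with h7 | h7
        · exact hc z _ hz h7
        · rw [← h7, one_mul, pow_two]
          calc z = z * 1 := (mul_one z).symm
            _ < z * z := hl _ _ _ hz
      have h6 := hl (z ^ (F g)) _ _ h5
      rw [mul_assoc, mul_inv_cancel_left, ← zpow_add_one] at h6
      have h7 : F g + 1 < F (g * z ^ 2) + 1 := hle1 le_rfl h6.le (hF2 _)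
      omega
    linarith

end conradian

end order

/-- A nonzero homomorphism from a finitely generated group to the reals gives a surjection onto the
integers. -/
theorem exists_int_hom [Group.FG G] (f : G →* Multiplicative ℝ) {z : G} (hz : f z ≠ 1) :
    ∃ h : G →* Multiplicative ℤ, Surjective h := by
  let A := Additive f.range
  have h1 : AddGroup.FG A := by
    rw [← GroupFG.iff_add_fg]
    exact Group.fg_of_surjective f.rangeRestrict_surjective
  have h2 : Module.Finite ℤ A := Module.Finite.iff_addGroup_fg.2 h1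
  have h3 : Module.IsTorsionFree ℤ A := by
    let j : A →+ ℝ := AddMonoidHom.mk' (fun a => Multiplicative.toAdd (a.toMul : Multiplicative ℝ))
      (fun _ _ => rfl)
    exact Function.Injective.moduleIsTorsionFree (R := ℤ) (N := ℝ) j
      (fun a b h => Additive.toMul.injective (Subtype.ext (Multiplicative.toAdd.injective h)))
      (fun n a => map_zsmul j n a)
  have h4 : Module.Free ℤ A := inferInstance
  let b := Module.Free.chooseBasis ℤ A
  have h5 : Nonempty (Module.Free.ChooseBasisIndex ℤ A) := by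
    by_contra h6
    rw [not_nonempty_iff] at h6
    have h7 : Subsingleton A := by
      have := b.repr.toEquiv
      exact this.subsingleton
    apply hz
    have h8 : Additive.ofMul (f.rangeRestrict z) = Additive.ofMul 1 := Subsingleton.elim (α := A) _ _
    have h9 := Additive.ofMul.injective h8
    exact congrArg Subtype.val h9
  obtain ⟨i⟩ := h5
  let c : A →+ ℤ := (b.coord i).toAddMonoidHom
  have hc : Surjective c := by
    intro n
    refine ⟨n • b i, ?_⟩
    show b.coord i (n • b i) = n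
    simp
  let F : f.range →* Multiplicative ℤ := AddMonoidHom.toMultiplicativeRight c
  refine ⟨F.comp f.rangeRestrict, ?_⟩
  refine Surjective.comp (g := F) ?_ f.rangeRestrict_surjective
  intro n
  obtain ⟨a, ha⟩ := hc (Multiplicative.toAdd n)
  exact ⟨a.toMul, ha⟩

end Vale.Agent.P284.WM
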