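import Vale.Agent.P284.H422.WM1
import Vale.Agent.P284.H422.WM2

/-!
Amenable left-orderable groups are locally indicable (Witte Morris 2006).
-/

namespace Vale.Agent.P284

open Set Function

universe u v

/-- `G` is amenable: there is a finitely additive left-invariant probability on all subsets. -/
def Amen (G : Type u) [Group G] : Prop :=
  ∃ m : Set G → ℝ, (∀ A, 0 ≤ m A) ∧ m Set.univ = 1 ∧
    (∀ A B, Disjoint A B → m (A ∪ B) = m A + m B) ∧ ∀ (g : G) (A : Set G), m {x | g * x ∈ A} = m A

/-- `G` is left-orderable: it has a left-invariant linear order. -/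
def LeftOrd (G : Type u) [Group G] : Prop :=
  ∃ _ : LinearOrder G, ∀ a b c : G, b < c → a * b < a * c

namespace WM

variable {G : Type u} [Group G]

open Pointwise in
theorem countable_of_fg [Group.FG G] : Countable G := by
  obtain ⟨S, hS⟩ := Group.fg_def.1 (inferInstance : Group.FG G)
  have hT : ((S : Set G) ∪ (S : Set G)⁻¹).Countable :=
    (S.finite_toSet.union S.finite_toSet.inv).countable
  have : Countable ↥((S : Set G) ∪ (S : Set G)⁻¹) := hT.to_subtype
  refine Function.Surjective.countable
    (f := fun l : List ↥((S : Set G) ∪ (S : Set G)⁻¹) => (l.map Subtype.val).prod) ?_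
  intro x
  have hx : x ∈ (Subgroup.closure (S : Set G)).toSubmonoid := by rw [hS]; trivial
  rw [Subgroup.closure_toSubmonoid] at hx
  obtain ⟨l, hl, rfl⟩ := Submonoid.exists_list_of_mem_closure hx
  refine ⟨l.pmap (fun y hy => ⟨y, hy⟩) hl, ?_⟩
  simp [List.map_pmap]

theorem IsCone.not_inv {p : G → Bool} (h : IsCone p) {a : G} (ha : p a = true) : p a⁻¹ = false := by
  by_contra h1
  rw [Bool.not_eq_false] at h1
  have h2 := h.mul _ _ ha h1
  rw [mul_inv_cancel, h.one] at h2
  exact Bool.false_ne_true h2

/-- The order of a cone. -/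
@[reducible] noncomputable def IsCone.order {p : G → Bool} (h : IsCone p) : LinearOrder G := by
  classical
  exact
  { le := fun x y => x = y ∨ p (x⁻¹ * y) = true
    lt := fun x y => p (x⁻¹ * y) = true
    le_refl := fun x => Or.inl rfl
    le_trans := by
      rintro x y z (rfl | h1) (rfl | h2)
      · exact Or.inl rfl
      · exact Or.inr h2
      · exact Or.inr h1
      · refine Or.inr ?_
        have := h.mul _ _ h1 h2
        rwa [show x⁻¹ * y * (y⁻¹ * z) = x⁻¹ * z by group] at this
    le_antisymm := by
      rintro x y (rfl | h1) (h2 | h2)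
      · rfl
      · rfl
      · exact h2.symm
      · have h3 := h.not_inv h1
        rw [show (x⁻¹ * y)⁻¹ = y⁻¹ * x by group, h2] at h3
        exact absurd h3 (by simp)
    lt_iff_le_not_ge := by
      intro x y
      constructor
      · intro h1
        refine ⟨Or.inr h1, ?_⟩
        rintro (rfl | h2)
        · rw [inv_mul_cancel, h.one] at h1
          exact absurd h1 (by simp)
        · have h3 := h.not_inv h1
          rw [show (x⁻¹ * y)⁻¹ = y⁻¹ * x by group, h2] at h3
          exact absurd h3 (by simp)
      · rintro ⟨rfl | h1, h2⟩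
        · exact absurd (Or.inl rfl) h2
        · exact h1
    le_total := by
      intro x y
      by_cases hxy : x = y
      · exact Or.inl (Or.inl hxy)
      · by_cases h1 : p (x⁻¹ * y) = true
        · exact Or.inl (Or.inr h1)
        · refine Or.inr (Or.inr ?_)
          rw [Bool.not_eq_true] at h1
          have := h.tot _ (fun h2 => hxy (by rw [inv_mul_eq_one] at h2; exact h2)) h1
          rwa [show (x⁻¹ * y)⁻¹ = y⁻¹ * x by group] at this
    toDecidableLE := Classical.decRel _ }

theorem IsCone.order_lt {p : G → Bool} (h : IsCone p) (x y : G) :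
    h.order.lt x y ↔ p (x⁻¹ * y) = true := Iff.rfl

end WM

theorem Amen.subgroup {G : Type u} [Group G] (h : Amen G) (H : Subgroup G) : Amen H := by
  classical
  obtain ⟨m, h1, h2, h3, h4⟩ := h
  -- `r g` is the component in `H` of `g = r g * t`
  let t : Quotient (QuotientGroup.rightRel H) → G := Quotient.out
  have ht : ∀ g : G, g * (t (Quotient.mk _ g))⁻¹ ∈ H := by
    intro g
    have := Quotient.mk_out (s := QuotientGroup.rightRel H) g
    rw [QuotientGroup.rightRel_apply] at this
    exact this
  let r : G → H := fun g => ⟨g * (t (Quotient.mk _ g))⁻¹, ht g⟩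
  have hr : ∀ (a : H) (g : G), r (a * g) = a * r g := by
    intro a g
    apply Subtype.ext
    have : (Quotient.mk (QuotientGroup.rightRel H) ((a : G) * g)) = Quotient.mk _ g := by
      apply Quotient.sound
      show QuotientGroup.rightRel H _ _
      rw [QuotientGroup.rightRel_apply]
      simp
    simp only [r, this, Subgroup.coe_mul, mul_assoc]
  refine ⟨fun A => m {g | r g ∈ A}, fun A => h1 _, ?_, ?_, ?_⟩
  · simpa using h2
  · intro A B hAB
    have := h3 {g | r g ∈ A} {g | r g ∈ B} (by
      rw [Set.disjoint_left] at hAB ⊢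
      exact fun g hg hg' => hAB hg hg')
    rw [← this]
    rfl
  · intro a A
    have := h4 (a : G) {g | r g ∈ A}
    show m {g | a * r g ∈ A} = m {g | r g ∈ A}
    rw [← this]
    congr 1
    ext g
    simp only [mem_ofPred_eq, hr]

theorem Amen.of_surjective {G : Type u} [Group G] {Q : Type v} [Group Q] (h : Amen G) (f : G →* Q)
    (hf : Surjective f) : Amen Q := by
  obtain ⟨m, h1, h2, h3, h4⟩ := h
  refine ⟨fun A => m {g | f g ∈ A}, fun A => h1 _, ?_, ?_, ?_⟩
  · simpa using h2
  · intro A B hAB
    have := h3 {g | f g ∈ A} {g | f g ∈ B} (by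
      rw [Set.disjoint_left] at hAB ⊢
      exact fun g hg hg' => hAB hg hg')
    rw [← this]
    rfl
  · intro q A
    obtain ⟨a, rfl⟩ := hf q
    have := h4 a {g | f g ∈ A}
    show m {g | f a * f g ∈ A} = m {g | f g ∈ A}
    rw [← this]
    congr 1
    ext g
    simp

theorem LeftOrd.of_injective {G : Type u} [Group G] {Q : Type v} [Group Q] (h : LeftOrd Q)
    (f : G →* Q) (hf : Injective f) : LeftOrd G := by
  obtain ⟨o, ho⟩ := h
  refine ⟨LinearOrder.lift' f hf, fun a b c hbc => ?_⟩
  have h1 : f b < f c := hbc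
  show f (a * b) < f (a * c)
  rw [map_mul, map_mul]
  exact ho _ _ _ h1

theorem LeftOrd.subgroup {G : Type u} [Group G] (h : LeftOrd G) (H : Subgroup G) : LeftOrd H :=
  h.of_injective H.subtype H.subtype_injective

open Classical in
/-- **Witte Morris' theorem**: a nontrivial finitely generated amenable left-orderable group has the
infinite cyclic group as a quotient. -/
theorem exists_hom_of_amen_leftOrd {G : Type u} [Group G] [Group.FG G] [Nontrivial G]
    (ha : Amen G) (hl : LeftOrd G) : ∃ f : G →* Multiplicative ℤ, Surjective f := by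
  obtain ⟨m, h1, h2, h3, h4⟩ := ha
  have hm : WM.IsMean m := ⟨h1, h2, h3, h4⟩
  obtain ⟨o, ho⟩ := hl
  have hcone : WM.IsCone (fun x : G => decide (1 < x)) := by
    refine ⟨by simp, ?_, ?_⟩
    · intro a b ha hb
      simp only [decide_eq_true_eq] at ha hb ⊢
      calc 1 < a := ha
        _ = a * 1 := (mul_one a).symm
        _ < a * b := ho _ _ _ hb
    · intro a ha h1
      simp only [decide_eq_true_eq, decide_eq_false_iff_not, not_lt] at h1 ⊢
      have h5 : a < 1 := lt_of_le_of_ne h1 ha
      have := ho a⁻¹ _ _ h5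
      simpa using this
  have hcount : Countable G := WM.countable_of_fg
  obtain ⟨p, hp, hrec⟩ := WM.exists_recurrent hm _ hcone
  let _ := hp.order
  have hlt : ∀ x y : G, x < y ↔ p (x⁻¹ * y) = true := fun x y => hp.order_lt x y
  have hl' : ∀ a b c : G, b < c → a * b < a * c := by
    intro a b c h5
    rw [hlt] at h5 ⊢
    rw [← h5]
    congr 1
    group
  have hr : ∀ a b : G, 1 < b → ∃ n : ℕ, 1 ≤ n ∧ 1 < (a ^ n)⁻¹ * b * a ^ n := by
    intro a b hb
    rw [hlt, inv_one, one_mul] at hb
    obtain ⟨n, hn, h5⟩ := hrec a b hb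
    refine ⟨n, hn, ?_⟩
    rw [hlt, inv_one, one_mul]
    exact h5
  obtain ⟨m', h1', h2', h3', h4'⟩ := hm.op
  obtain ⟨f, z, hz⟩ := WM.exists_real_hom hl' (fun a b ha hb => WM.conrad2 hl' hr ha hb)
    ⟨h1', h2', h3'⟩ h4'
  exact WM.exists_int_hom f hz

/-- Amenable left-orderable groups are locally indicable. -/
theorem locallyIndicable_of_amen_leftOrd {G : Type u} [Group G] (ha : Amen G) (hl : LeftOrd G)
    (H : Subgroup G) (hH : H.FG) (hne : H ≠ ⊥) : ∃ f : H →* Multiplicative ℤ, Surjective f := by
  have : Group.FG H := (Group.fg_iff_subgroup_fg H).2 hH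
  have : Nontrivial H := (Subgroup.nontrivial_iff_ne_bot H).2 hne
  exact exists_hom_of_amen_leftOrd (ha.subgroup H) (hl.subgroup H)

end Vale.Agent.P284
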