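import Vale.Agent.P284.H422.WM
import Vale.Agent.P284.H593.Defs

/-!
Groups of matrices congruent to `1` modulo a nilpotent ideal of a commutative `ℚ`-algebra are
locally indicable.
-/

namespace Vale.Agent.P284

open Function

theorem exists_functional_of_notMem {U : Type*} [AddCommGroup U] [Module ℚ U]
    (S : Submodule ℚ U) {x : U} (hx : x ∉ S) :
    ∃ l : U →ₗ[ℚ] ℚ, (∀ y ∈ S, l y = 0) ∧ l x ≠ 0 := by
  obtain ⟨l, hl1, hl2⟩ := Submodule.exists_le_ker_of_notMem hx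
  exact ⟨l, fun y hy => hl2 hy, hl1⟩

theorem locInd_of_congr_one {Q : Type} [Group Q] {U : Type} [CommRing U] [Algebra ℚ U]
    (n : Ideal U) (hn : IsNilpotent n) {d : ℕ} (ρ : Q →* Matrix (Fin d) (Fin d) U)
    (hρ : Function.Injective ρ)
    (h1 : ∀ g i j, ρ g i j - (1 : Matrix (Fin d) (Fin d) U) i j ∈ n) : H593.LocInd Q := by
  classical
  intro K hK hne
  have hKfg : Group.FG K := (Group.fg_iff_subgroup_fg _).2 hK
  obtain ⟨N, hN⟩ := hn
  have hex : ∃ k : ℕ, ∃ g ∈ K, ∃ i j, ρ g i j - (1 : Matrix (Fin d) (Fin d) U) i j ∉ n ^ (k + 2) := by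
    by_contra hcon
    push Not at hcon
    apply hne
    rw [Subgroup.eq_bot_iff_forall]
    intro g hg
    apply hρ
    rw [map_one]
    ext i j
    have h2 := Ideal.pow_le_pow_right (I := n) (by omega : N ≤ N + 2) (hcon N g hg i j)
    rw [hN] at h2
    exact sub_eq_zero.1 (by simpa using h2)
  obtain ⟨k, ⟨g₀, hg₀, i, j, hij⟩, hmin⟩ : ∃ k : ℕ, (∃ g ∈ K, ∃ i j,
      ρ g i j - (1 : Matrix (Fin d) (Fin d) U) i j ∉ n ^ (k + 2)) ∧
      ∀ m < k, ¬ ∃ g ∈ K, ∃ i j, ρ g i j - (1 : Matrix (Fin d) (Fin d) U) i j ∉ n ^ (m + 2) :=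
    ⟨Nat.find hex, Nat.find_spec hex, fun j hj => Nat.find_min hex hj⟩
  have hall : ∀ g ∈ K, ∀ i j, ρ g i j - (1 : Matrix (Fin d) (Fin d) U) i j ∈ n ^ (k + 1) := by
    rcases Nat.eq_zero_or_pos k with h0 | h0
    · subst h0
      intro g _ i j
      rw [zero_add, pow_one]
      exact h1 g i j
    · have h3 := hmin (k - 1) (by omega)
      push Not at h3
      have h4 : k - 1 + 2 = k + 1 := by omega
      rw [h4] at h3
      exact h3
  have hmul : ∀ g ∈ K, ∀ h ∈ K, ∀ i j,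
      (ρ (g * h) i j - (1 : Matrix (Fin d) (Fin d) U) i j)
        - ((ρ g i j - (1 : Matrix (Fin d) (Fin d) U) i j)
          + (ρ h i j - (1 : Matrix (Fin d) (Fin d) U) i j)) ∈ n ^ (k + 2) := by
    intro g hg h hh i j
    have e : ρ (g * h) - 1 - ((ρ g - 1) + (ρ h - 1)) = (ρ g - 1) * (ρ h - 1) := by
      rw [map_mul]
      noncomm_ring
    have e' := congrFun (congrFun e i) j
    simp only [Matrix.sub_apply, Matrix.add_apply] at e'
    rw [e', Matrix.mul_apply]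
    refine Ideal.sum_mem _ fun c _ => ?_
    have h5 := Ideal.mul_mem_mul (hall g hg i c) (hall h hh c j)
    rw [← pow_add] at h5
    exact Ideal.pow_le_pow_right (by omega : k + 2 ≤ k + 1 + (k + 1)) h5
  obtain ⟨l, hl1, hl2⟩ := exists_functional_of_notMem ((n ^ (k + 2)).restrictScalars ℚ)
    (x := ρ g₀ i j - (1 : Matrix (Fin d) (Fin d) U) i j) hij
  let F : K →* Multiplicative ℝ := MonoidHom.mk'
    (fun g => Multiplicative.ofAdd
      (((l (ρ g.1 i j - (1 : Matrix (Fin d) (Fin d) U) i j) : ℚ)) : ℝ)) (by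
    intro g h
    have h3 := hl1 _ (hmul g.1 g.2 h.1 h.2 i j)
    rw [map_sub, sub_eq_zero, map_add] at h3
    rw [← ofAdd_add, ← Rat.cast_add, ← h3]
    rfl)
  refine WM.exists_int_hom F (z := ⟨g₀, hg₀⟩) ?_
  intro h
  apply hl2
  have h3 : (((l (ρ g₀ i j - (1 : Matrix (Fin d) (Fin d) U) i j) : ℚ)) : ℝ) = 0 := h
  exact_mod_cast h3

end Vale.Agent.P284
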