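import Vale.Agent.P284.Bdl.B1
import Vale.Agent.P284.H422.WM

/-!
Amenable, virtually left-orderable fundamental groups.
-/

namespace Vale.Agent.P284

open Set Function

universe u

/-- Some finite-index subgroup of `G` is left-orderable. -/
def VirtLeftOrd (G : Type u) [Group G] : Prop :=
  ∃ H : Subgroup G, H.FiniteIndex ∧ LeftOrd H

/-- A finitely generated infinite amenable virtually left-orderable group is virtually indicable. -/
theorem virtInd_of_amen {K : Type u} [Group K] [Group.FG K] [Infinite K] (ha : Amen K)
    (hl : VirtLeftOrd K) : VirtInd K := by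
  obtain ⟨H, hH, ho⟩ := hl
  have h1 : Group.FG H := inferInstance
  have h2 : Infinite H := by
    by_contra h3
    rw [not_infinite_iff_finite] at h3
    have h4 := H.card_mul_index
    rw [Nat.card_eq_zero_of_infinite (α := K)] at h4
    rcases Nat.mul_eq_zero.1 h4 with h5 | h5
    · exact Nat.card_pos.ne' h5
    · exact hH.index_ne_zero h5
  have h3 : Nontrivial H := inferInstance
  exact ⟨H, hH, exists_hom_of_amen_leftOrd (ha.subgroup H) ho⟩

theorem VirtLeftOrd.subgroup {G : Type u} [Group G] (h : VirtLeftOrd G) (K : Subgroup G) :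
    VirtLeftOrd K := by
  obtain ⟨H, hH, ho⟩ := h
  refine ⟨H.subgroupOf K, inferInstance, ?_⟩
  exact ho.of_injective ((K.subtype.comp (H.subgroupOf K).subtype).codRestrict H (fun x => x.2))
    (fun a b hab => by
      have := congrArg Subtype.val hab
      exact Subtype.ext (Subtype.ext this))

theorem kerVirtInd_of_amen {G : Type u} [Group G] {N : ℕ} (h : Restricted G N) (ha : Amen G)
    (hl : VirtLeftOrd G) : KerVirtInd G := by
  intro H hH hinf
  have h1 : Group.FG (zKer H) := (Group.fg_iff_subgroup_fg _).2 (h.1 H hH).2
  exact virtInd_of_amen ((ha.subgroup H).subgroup _) ((hl.subgroup H).subgroup _)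

theorem virtAb_of_amen {G : Type u} [Group G] {N : ℕ} (h : Restricted G N) (ha : Amen G)
    (hl : VirtLeftOrd G) : VirtAb G :=
  ((tfae_restricted h).out 0 2 : _ ↔ _).2 (kerVirtInd_of_amen h ha hl)

/-- Every infinite finitely generated subgroup of an amenable virtually left-orderable group has a
finite-index subgroup onto `ℤ` (this is `LocVirtInd`). -/
theorem locVirtInd_of_amen {Q : Type u} [Group Q] (ha : Amen Q) (hl : VirtLeftOrd Q)
    (K : Subgroup Q) (hK : K.FG) (hinf : Infinite K) : VirtInd K := by
  have : Group.FG K := (Group.fg_iff_subgroup_fg _).2 hK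
  exact virtInd_of_amen (ha.subgroup K) (hl.subgroup K)

end Vale.Agent.P284
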