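import Vale.Agent.P284.MathlibUsed
import Mathlib.Topology.Baire.LocallyCompactRegular

/-!
Amenable left-ordered groups have Conradian orders (Witte Morris 2006), first part: the mean and
the space of left orders.
-/

namespace Vale.Agent.P284.WM

open Set Topology Function

universe u

set_option linter.unusedSectionVars false

variable {G : Type u} [Group G]

/-- A finitely additive left-invariant probability on all subsets of `G`. -/
structure IsMean (m : Set G → ℝ) : Prop where
  nonneg : ∀ A, 0 ≤ m A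
  univ : m univ = 1
  add : ∀ A B, Disjoint A B → m (A ∪ B) = m A + m B
  inv : ∀ (g : G) A, m {x | g * x ∈ A} = m A

section mean

variable {m : Set G → ℝ} (hm : IsMean m)
include hm

theorem IsMean.empty : m ∅ = 0 := by
  have := hm.add ∅ ∅ (by simp)
  simp at this
  exact this

theorem IsMean.mono {A B : Set G} (h : A ⊆ B) : m A ≤ m B := by
  have h1 := hm.add A (B \ A) disjoint_sdiff_right
  rw [union_sdiff_cancel h] at h1
  have := hm.nonneg (B \ A)
  linarith

theorem IsMean.union_le (A B : Set G) : m (A ∪ B) ≤ m A + m B := by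
  have h1 := hm.add A (B \ A) disjoint_sdiff_right
  rw [union_sdiff_self] at h1
  have := hm.mono (show B \ A ⊆ B from sdiff_subset)
  linarith

theorem IsMean.union_add_inter (A B : Set G) : m (A ∪ B) + m (A ∩ B) = m A + m B := by
  have h1 := hm.add A (B \ A) disjoint_sdiff_right
  rw [union_sdiff_self] at h1
  have h2 := hm.add (A ∩ B) (B \ A) (disjoint_sdiff_right.mono_left inter_subset_left)
  have h3 : A ∩ B ∪ B \ A = B := by
    rw [inter_comm]; exact inter_union_sdiff B A
  rw [h3] at h2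
  linarith

theorem IsMean.biUnion_null {ι : Type*} (t : Finset ι) (A : ι → Set G)
    (h : ∀ i ∈ t, m (A i) = 0) : m (⋃ i ∈ t, A i) = 0 := by
  classical
  induction t using Finset.induction_on with
  | empty => simp [hm.empty]
  | insert a t _ ih =>
    rw [Finset.set_biUnion_insert]
    have h1 := hm.union_le (A a) (⋃ i ∈ t, A i)
    rw [h a (Finset.mem_insert_self _ _), ih fun i hi => h i (Finset.mem_insert_of_mem hi)] at h1
    exact le_antisymm (by linarith) (hm.nonneg _)

/-- Sets of the same positive mean cannot be almost disjoint. -/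
theorem IsMean.exists_inter {c : ℝ} (hc : 0 < c) (A : ℕ → Set G) (hA : ∀ i, m (A i) = c) :
    ∃ i j, i < j ∧ 0 < m (A i ∩ A j) := by
  by_contra hcon
  push Not at hcon
  have h0 : ∀ i j, i < j → m (A i ∩ A j) = 0 := fun i j hij =>
    le_antisymm (hcon i j hij) (hm.nonneg _)
  have key : ∀ N : ℕ, m (⋃ i ∈ Finset.range N, A i) = N * c := by
    intro N
    induction N with
    | zero => simp [hm.empty]
    | succ N ih =>
      rw [Finset.range_add_one, Finset.set_biUnion_insert]
      have h1 := hm.union_add_inter (A N) (⋃ i ∈ Finset.range N, A i)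
      have h2 : m (A N ∩ ⋃ i ∈ Finset.range N, A i) = 0 := by
        rw [inter_iUnion₂]
        refine hm.biUnion_null _ _ (fun i hi => ?_)
        rw [inter_comm]
        exact h0 i N (Finset.mem_range.1 hi)
      rw [h2, hA, ih] at h1
      push_cast
      linarith
  obtain ⟨N, hN⟩ := exists_nat_gt (1 / c)
  have h1 := key N
  have h2 := hm.mono (subset_univ (⋃ i ∈ Finset.range N, A i))
  rw [h1, hm.univ] at h2
  rw [div_lt_iff₀ hc] at hN
  linarith

/-- The right-invariant mean. -/
theorem IsMean.op : ∃ m' : Set G → ℝ, (∀ A, 0 ≤ m' A) ∧ m' Set.univ = 1 ∧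
    (∀ A B, Disjoint A B → m' (A ∪ B) = m' A + m' B) ∧ ∀ (g : G) A, m' {x | x * g ∈ A} = m' A := by
  refine ⟨fun A => m {x | x⁻¹ ∈ A}, fun A => hm.nonneg _, ?_, ?_, ?_⟩
  · simpa using hm.univ
  · intro A B h
    rw [← hm.add]
    · rfl
    · rw [Set.disjoint_left] at h ⊢
      exact fun x hx hx' => h hx hx'
  · intro g A
    have h1 := hm.inv g⁻¹ {x | x⁻¹ ∈ A}
    show m {x | x⁻¹ ∈ {x | x * g ∈ A}} = m {x | x⁻¹ ∈ A}
    rw [← h1]
    congr 1
    ext x
    simp

end mean

/-- Positive cones of left-invariant orders, as functions to `Bool`. -/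
structure IsCone (p : G → Bool) : Prop where
  one : p 1 = false
  mul : ∀ a b, p a = true → p b = true → p (a * b) = true
  tot : ∀ a, a ≠ 1 → p a = false → p a⁻¹ = true

/-- Conjugation of a cone. -/
def cj (g : G) (p : G → Bool) : G → Bool := fun x => p (g⁻¹ * x * g)

theorem cj_cj (g h : G) (p : G → Bool) : cj g (cj h p) = cj (g * h) p := by
  funext x
  unfold cj
  congr 1
  group

theorem cj_one (p : G → Bool) : cj 1 p = p := by
  funext x
  simp [cj]

theorem IsCone.cj {p : G → Bool} (h : IsCone p) (g : G) : IsCone (cj g p) where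
  one := by simp [WM.cj, h.one]
  mul a b ha hb := by
    have := h.mul _ _ ha hb
    unfold WM.cj
    rw [← this]
    congr 1
    group
  tot a ha h1 := by
    have h2 : g⁻¹ * a * g ≠ 1 := by
      intro hh
      apply ha
      have : a = g * (g⁻¹ * a * g) * g⁻¹ := by group
      rw [this, hh]; simp
    have := h.tot _ h2 h1
    unfold WM.cj
    rw [← this]
    congr 1
    group

theorem continuous_cj (g : G) : Continuous (cj g : (G → Bool) → (G → Bool)) :=
  continuous_pi fun _ => continuous_apply _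

/-- Cylinders. -/
def cyl (F : Finset G) (p : G → Bool) : Set (G → Bool) := {q | ∀ x ∈ F, q x = p x}

theorem isClopen_cyl (F : Finset G) (p : G → Bool) : IsClopen (cyl F p) := by
  have : cyl F p = ⋂ x ∈ F, {q | q x = p x} := by ext; simp [cyl]
  rw [this]
  refine isClopen_biInter_finset fun x _ => ?_
  exact (isClopen_discrete {p x}).preimage (continuous_apply x)

theorem mem_cyl_self (F : Finset G) (p : G → Bool) : p ∈ cyl F p := fun _ _ => rfl

theorem exists_cyl_subset {U : Set (G → Bool)} (hU : IsOpen U) {p : G → Bool} (hp : p ∈ U) :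
    ∃ F : Finset G, cyl F p ⊆ U := by
  rw [isOpen_pi_iff] at hU
  obtain ⟨I, u, h1, h2⟩ := hU p hp
  refine ⟨I, fun q hq => h2 ?_⟩
  intro x hx
  rw [hq x hx]
  exact (h1 x hx).2

section recurrence

variable {m : Set G → ℝ} (hm : IsMean m) (p₀ : G → Bool)

/-- The distribution of the conjugates of `p₀`. -/
def nu (m : Set G → ℝ) (p₀ : G → Bool) (C : Set (G → Bool)) : ℝ := m {g | cj g p₀ ∈ C}

/-- The support. -/
def supp (m : Set G → ℝ) (p₀ : G → Bool) : Set (G → Bool) :=
  {p | ∀ F : Finset G, 0 < nu m p₀ (cyl F p)}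

include hm

theorem nu_cj (h : G) (C : Set (G → Bool)) : nu m p₀ {q | cj h q ∈ C} = nu m p₀ C := by
  have h1 := hm.inv h {g | cj g p₀ ∈ C}
  unfold nu
  rw [← h1]
  congr 1
  ext g
  simp [cj_cj]

theorem nu_null_of_disjoint {C : Set (G → Bool)} (hC : IsClosed C) (h : Disjoint C (supp m p₀)) :
    nu m p₀ C = 0 := by
  have h1 : ∀ p : G → Bool, ∃ F : Finset G, p ∈ C → nu m p₀ (cyl F p) = 0 := by
    intro p
    by_cases hp : p ∈ C
    · have h2 : p ∉ supp m p₀ := fun h3 => Set.disjoint_left.1 h hp h3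
      unfold supp at h2
      simp only [mem_ofPred_eq, not_forall, not_lt] at h2
      obtain ⟨F, hF⟩ := h2
      exact ⟨F, fun _ => le_antisymm hF (hm.nonneg _)⟩
    · exact ⟨∅, fun h => absurd h hp⟩
  choose F hF using h1
  obtain ⟨t, ht⟩ := hC.isCompact.elim_finite_subcover (fun p : C => cyl (F p.1) p.1)
    (fun p => (isClopen_cyl _ _).isOpen) (fun p hp => mem_iUnion.2 ⟨⟨p, hp⟩, mem_cyl_self _ _⟩)
  have h3 : m (⋃ p ∈ t, {g | cj g p₀ ∈ cyl (F p.1) p.1}) = 0 :=
    hm.biUnion_null t _ (fun p _ => hF p.1 p.2)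
  refine le_antisymm (le_trans (hm.mono ?_) h3.le) (hm.nonneg _)
  intro g hg
  obtain ⟨p, hp, hgp⟩ := mem_iUnion₂.1 (ht hg)
  exact mem_iUnion₂.2 ⟨p, hp, hgp⟩

theorem supp_nonempty : (supp m p₀).Nonempty := by
  by_contra h
  rw [not_nonempty_iff_eq_empty] at h
  have h1 := nu_null_of_disjoint hm p₀ isClosed_univ (by rw [h]; simp)
  have h2 : nu m p₀ univ = 1 := by simpa [nu] using hm.univ
  rw [h1] at h2
  exact zero_ne_one h2

omit hm in
theorem supp_isClosed : IsClosed (supp m p₀) := by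
  rw [← isOpen_compl_iff, isOpen_iff_mem_nhds]
  intro p hp
  unfold supp at hp
  simp only [mem_compl_iff, mem_ofPred_eq, not_forall] at hp
  obtain ⟨F, hF⟩ := hp
  refine Filter.mem_of_superset ((isClopen_cyl F p).isOpen.mem_nhds (mem_cyl_self F p)) ?_
  intro q hq hq'
  apply hF
  have : cyl F p = cyl F q := by
    ext r
    exact ⟨fun h x hx => (h x hx).trans (hq x hx).symm, fun h x hx => (h x hx).trans (hq x hx)⟩
  rw [this]
  exact hq' F

theorem supp_cj {p : G → Bool} (hp : p ∈ supp m p₀) (h : G) : cj h p ∈ supp m p₀ := by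
  intro F
  classical
  have h1 := hp (F.image fun x => h⁻¹ * x * h)
  refine lt_of_lt_of_le h1 ?_
  rw [← nu_cj hm p₀ h (cyl F (cj h p))]
  refine hm.mono fun g hg x hx => ?_
  exact hg _ (Finset.mem_image_of_mem _ hx)

theorem supp_isCone (hp₀ : IsCone p₀) {p : G → Bool} (hp : p ∈ supp m p₀) : IsCone p := by
  have key : ∀ F : Finset G, ∃ g, ∀ x ∈ F, cj g p₀ x = p x := by
    intro F
    have h1 := hp F
    by_contra hcon
    push Not at hcon
    have : {g | cj g p₀ ∈ cyl F p} = ∅ := by
      ext g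
      simp only [mem_ofPred_eq, mem_empty_iff_false, iff_false]
      intro hg
      obtain ⟨x, hx, hx'⟩ := hcon g
      exact hx' (hg x hx)
    unfold nu at h1
    rw [this, hm.empty] at h1
    exact lt_irrefl _ h1
  classical
  constructor
  · obtain ⟨g, hg⟩ := key {1}
    rw [← hg 1 (by simp)]
    exact (hp₀.cj g).one
  · intro a b ha hb
    obtain ⟨g, hg⟩ := key {a, b, a * b}
    rw [← hg a (by simp)] at ha
    rw [← hg b (by simp)] at hb
    rw [← hg (a * b) (by simp)]
    exact (hp₀.cj g).mul a b ha hb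
  · intro a ha h1
    obtain ⟨g, hg⟩ := key {a, a⁻¹}
    rw [← hg a (by simp)] at h1
    rw [← hg a⁻¹ (by simp)]
    exact (hp₀.cj g).tot a ha h1

/-- An order which is recurrent for all cyclic subgroups. -/
theorem exists_recurrent [Countable G] (hp₀ : IsCone p₀) : ∃ p : G → Bool, IsCone p ∧
    ∀ a b : G, p b = true → ∃ n : ℕ, 1 ≤ n ∧ p ((a ^ n)⁻¹ * b * a ^ n) = true := by
  set Y := supp m p₀ with hY
  have hYc : IsClosed Y := supp_isClosed p₀
  have : CompactSpace Y := isCompact_iff_compactSpace.1 hYc.isCompact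
  have : Nonempty Y := (supp_nonempty hm p₀).to_subtype
  let O : G × G → Set Y := fun ab => {p | p.1 ab.2 = false ∨
    ∃ n : ℕ, 1 ≤ n ∧ p.1 ((ab.1 ^ n)⁻¹ * ab.2 * ab.1 ^ n) = true}
  have hO : ∀ ab, IsOpen (O ab) := by
    intro ab
    have e : O ab = {p : Y | p.1 ab.2 = false} ∪
        ⋃ n : ℕ, {p : Y | 1 ≤ n ∧ p.1 ((ab.1 ^ n)⁻¹ * ab.2 * ab.1 ^ n) = true} := by
      ext p
      simp [O]
    rw [e]
    have hcl : ∀ (x : G) (c : Bool), IsOpen {p : Y | p.1 x = c} := fun x c => by
      have h1 : Continuous (fun p : Y => p.1 x) := (continuous_apply x).comp continuous_subtype_val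
      exact (isOpen_discrete ({c} : Set Bool)).preimage h1
    refine (hcl _ _).union (isOpen_iUnion fun n => ?_)
    by_cases hn : 1 ≤ n
    · simpa [hn] using hcl ((ab.1 ^ n)⁻¹ * ab.2 * ab.1 ^ n) true
    · simp [hn]
  have hD : ∀ ab, Dense (O ab) := by
    intro ⟨a, b⟩
    rw [dense_iff_inter_open]
    intro U hU hne
    obtain ⟨p, hp⟩ := hne
    obtain ⟨V, hV, rfl⟩ := isOpen_induced_iff.1 hU
    obtain ⟨F, hF⟩ := exists_cyl_subset hV hp
    by_contra hcon
    rw [not_nonempty_iff_eq_empty, eq_empty_iff_forall_notMem] at hcon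
    have hno : ∀ q (hq : q ∈ Y), q ∈ cyl F p.1 → q b = true ∧
        ∀ n : ℕ, 1 ≤ n → q ((a ^ n)⁻¹ * b * a ^ n) = false := by
      intro q hq hqF
      have h1 := hcon ⟨q, hq⟩
      have h2 : (⟨q, hq⟩ : Y) ∉ O (a, b) := fun h => h1 ⟨hF hqF, h⟩
      simp only [O, mem_ofPred_eq, not_or, not_exists, not_and, Bool.not_eq_false,
        Bool.not_eq_true] at h2
      exact h2
    obtain ⟨i, j, hij, hpos⟩ := hm.exists_inter (p.2 F)
      (fun i => {g | cj (a ^ i) (cj g p₀) ∈ cyl F p.1}) (fun i => nu_cj hm p₀ (a ^ i) (cyl F p.1))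
    have h3 : 0 < nu m p₀ (cyl F p.1 ∩ {q | cj (a ^ (j - i)) q ∈ cyl F p.1}) := by
      rw [← nu_cj hm p₀ (a ^ i)]
      refine lt_of_lt_of_le hpos (hm.mono ?_)
      rintro g ⟨h4, h5⟩
      refine ⟨h4, ?_⟩
      simp only [mem_ofPred_eq] at h5 ⊢
      rw [cj_cj]
      rw [← pow_add]
      rw [show j - i + i = j by omega]
      exact h5
    have h4 : (cyl F p.1 ∩ {q | cj (a ^ (j - i)) q ∈ cyl F p.1} ∩ Y).Nonempty := by
      by_contra h5
      rw [not_nonempty_iff_eq_empty] at h5
      have h6 := nu_null_of_disjoint hm p₀ ((isClopen_cyl F p.1).isClosed.inter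
        ((isClopen_cyl F p.1).isClosed.preimage (continuous_cj (a ^ (j - i)))))
        (disjoint_iff_inter_eq_empty.2 h5)
      exact h3.ne' h6
    obtain ⟨q, ⟨hq1, hq2⟩, hqY⟩ := h4
    have h5 := (hno q hqY hq1).2 (j - i) (by omega)
    have h6 := (hno _ (supp_cj hm p₀ hqY (a ^ (j - i))) hq2).1
    unfold cj at h6
    rw [h5] at h6
    exact Bool.false_ne_true h6
  obtain ⟨p, hp⟩ := (dense_iInter_of_isOpen hO hD).nonempty
  refine ⟨p.1, supp_isCone hm p₀ hp₀ p.2, fun a b hb => ?_⟩
  have h1 := mem_iInter.1 hp (a, b)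
  rcases h1 with h1 | h1
  · simp only at h1
    rw [hb] at h1
    exact absurd h1 (by simp)
  · exact h1

end recurrence

end Vale.Agent.P284.WM
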